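import Vale.Agent.P022S.Ps.Pz
import Vale.Agent.P022G.Ps.Soc
import Vale.Agent.P022S.Wx.Hd
import Vale.Agent.P022S.Fp.Dm

/-!
P022S: the forms side with the principal series modules.
-/

set_option linter.all false

noncomputable section

namespace Vale.Agent.P022S.Ps

open Vale.Agent.P022G.Ps

open Vale.Agent.P022 Vale.Agent.P022D.V Vale.Agent.P022E.V Vale.Agent.P022E.Fm Vale.Agent.P027M.M
open Vale.Agent.P022D.W.Step (kl)
open Vale.Agent.P022D.Fm (Mt)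
open Vale.Agent.P022D.As (Tg cc tt mT Sb2)
open Vale.Agent.P022D.Rep (XG XJ)
open Vale.Agent.P022E.As (Lv2)

variable {O F : Type} [CommRing O] [IsDomain O] [IsDiscreteValuationRing O] [P022D.Core.Coef O]
  [Co O] [Field F] [Finite F] [CharP F 2] {U : Su O F} [hC : ∀ l : U.L.C, Fact l.1.Prime]
  {Cc : ∀ l : U.L.C, P022D.Rep.Ch (ZMod l.1) F}

/-- the modules modulo `ϖ` -/
abbrev Yy {r n : ℕ} {q : Fin r → ℕ} (P : Lq U r n q) (i : TY U.bn Cc) : Type :=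
  Mt P.ev (P.X.Y i.v)

theorem mT_max (hU : U.OkS) : (mT U.L.r).IsMaximal :=
  Ideal.comap_isMaximal_of_surjective _ fun c => ⟨cc c, MvPolynomial.eval₂Hom_C _ _ c⟩

section one

variable {r n : ℕ} {q : Fin r → ℕ} (P : Lq U r n q)

theorem exY (hZ : HZ U) (i j k : TY U.bn Cc) (s : SesY U.bn Cc i j k) :
    ∃ (f : Yy P i →ₗ[Tg O] Yy P j) (g : Yy P j →ₗ[Tg O] Yy P k),
      Function.Injective f ∧ Function.Exact f g ∧ Function.Surjective g := by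
  obtain ⟨⟨θ, h1⟩, -⟩ := hZ r n q P
  exact Hz.ses_sub P.X.E P.ev (sesY P.Ec h1 s)

theorem sbY (hU : U.OkS) (hZ : HZ U) {b : ℕ} (hb : ∀ i : Ix U Cc, Sb2 (mT U.L.r) b (P.Yb i))
    (i : TY U.bn Cc) : Sb2 (mT U.L.r) (3 ^ Fintype.card U.L.C * b) (Yy P i) :=
  TY.ind (Q := fun i b => Sc (mT U.L.r) b (Yy P i)) hb (fun _ _ _ e h => Sc.mono e h)
    (fun a c e m k s h1 h2 => by
      obtain ⟨f, g, a1, a2, -⟩ := exY P hZ a c e s
      exact Sc.ses (mT_max hU) f g a1 a2 h1 h2) i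

theorem piY (i : TY U.bn Cc) (w : Yy P i) : cc U.ϖ • w = 0 := by
  obtain ⟨w, hw⟩ := w
  refine Subtype.ext ?_
  change P.X.ev P.u (cc U.ϖ) • w = 0
  rw [Red.ev_cc]
  exact Subtype.ext (P022D.Fm.mem_of_sub (Red.y1_le P.X _ hw.1)).2

theorem lv2Y (hU : U.OkS) (R : Rw U Cc) (hZ : HZ U) (P0 : L0 U) (φ : Fin r → GQ)
    (hφ : ∀ i, IsFrob (q i) (φ i)) {b : ℕ} (hb : ∀ i : Ix U Cc, Sb2 (mT U.L.r) b (P.Yb i)) :
    Lv2 U.ϖ U.S U.L (fun i : TY U.bn Cc => Yy P0 i) P0.W0 (SesY U.bn Cc) (inc (XG U.bn Cc))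
      (fun J => inc (XJ U.bn Cc J)) (fun _ => 3 ^ Fintype.card U.L.C * b) 5 n q P.τ φ
      (fun i : TY U.bn Cc => Yy P i) P.Wc := by
  have o := lv2_of R.gmr R.dia R.exf R.red R.cyf R.urf R.nwf R.fib R.dsc P0 P φ hφ b hb
  have z : ∀ i : TY U.bn Cc, P.X.Y i.v ≤ P.X.Z := fun i => Fb.y_le _ _
  have hK := clsCGs hU
  exact
    { hτ := o.hτ
      hφ := hφ
      gm := fun i => R.gmr r n q P _ (z i)
      gmC := o.gmC
      dia := fun i => (R.dia r n q P).2 _ fun _ hv => (z i hv).1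
      diaC := o.diaC
      ex := exY P hZ
      sb := sbY P hU hZ hb
      pi := piY P
      free := fun i ⟨v, hv⟩ hw => by
        obtain ⟨v', a, e⟩ := (hZ r n q P).2 i.v v hv fun s =>
          (((R.dia r n q P).1 v (z i hv).1).1 s).symm.trans (congrArg Subtype.val (hw s))
        exact ⟨⟨v', a⟩, Subtype.ext (e.trans ((R.dia r n q P).1 v' (z i a).1).2.1.symm)⟩
      fib := fun i => by
        obtain ⟨β, a, e, c⟩ := Fb.coreGs hU (fun L => gg_iflGs hU R.gop L) chain (P022S.newdS O)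
          (P022S.gtS O) (Fb.famYGs hU i.v) P0 P φ hφ
        refine ⟨β, fun s w => (Fb.fix_iff R.dia hK P (z i) _).2 (a w) s, fun w h => ?_,
          fun v h => ?_⟩
        · rw [pow_add _ 2 3, mul_smul, e w h, smul_zero]
        · rw [pow_add _ 2 3, mul_smul]
          exact Submodule.smul_mem _ _ (c v ((Fb.fix_iff R.dia hK P (z i) _).1 h))
      red := o.red
      piC := o.piC
      flat := o.flat
      cyc := o.cyc
      unr := o.unr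
      new := o.new
      desc := o.desc }

theorem psY (hU : U.OkS) {y : O} (hy : y * y = -1) (a : U.L.C) :
    ∃ K : Submodule (U.B P.M) (U.GG P.M), 4 ∣ (a : ℕ) - 1 → U.L.r (U.L.τ a) = 1 →
      Ps2 U.ϖ U.S U.L n q P.τ (U.L.τ a) (Yy P (YB U.bn Cc)) (Mt P.ev K) := by
  by_cases h4 : 4 ∣ (a : ℕ) - 1
  · have hH := hcCGs hU
    have lq := lqCGs hU
    have L := lq.1 _ _ _ _ _ _ P.lv
    haveI : NeZero P.M := ⟨L.odd.pos.ne'⟩
    have dia := diaCGs hU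
    have cls := clsCGs hU
    obtain ⟨κ, κ', w, h, h0⟩ := ex_pd hU L hy a.2 h4
    exact ⟨_, fun _ h1 => h.ps2 Cc hU L hH lq (cutCGs hU hH lq) (Nm.hignGs hU (Nm.whpGs hU)) cls
      (gmrCGs hU hH lq cls dia) dia a.2 h1 h0⟩
  · exact ⟨⊥, fun h => absurd h h4⟩

end one

/-- levels exist -/
theorem ex_lqS (hU : U.OkS) (r n : ℕ) (q : Fin r → ℕ) (hq : Function.Injective q)
    (ha : ∀ i, Wx.AqS U.S.T (n + 1) (q i)) : Nonempty (Lq U r n q) := by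
  obtain ⟨b, τ, hL⟩ := exLvGs (n := n) hU hq (fun i => ⟨(ha i).prime, (ha i).out⟩)
    (fun i => (ha i).one) fun i => by
      obtain ⟨z, hz⟩ := (ha i).two
      exact ⟨z ^ 2, by rw [← pow_mul, ← pow_succ', hz]⟩
  have hm := (lqCGs hU).1 r n _ q b τ hL
  obtain ⟨t, d, ho⟩ := (gopCGs hU _ hm.odd hm.asm_three).1
  obtain ⟨E, hE⟩ := Ac.actHGs hU _ n hm t d ho
  have hc := hcCGs hU _ hm.odd hm.asm_three
  choose u1 hu1 using fun i => hc.ex 1 (b i) (asm_cg_one (asm_cg_mono (hL.asm_dvd i) (hL.b1 i)))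
  choose u2 hu2 using fun i => hc.ex (b i) (b i)⁻¹ (asm_cg_inv (asm_cg_mono (hL.asm_dvd i) (hL.b1 i)))
  exact ⟨⟨_, b, τ, ⟨t, d, E⟩, Sum.elim u1 u2, hL, hE, fun i => ⟨hu1 i, hu2 i⟩⟩⟩

theorem nz0 (hU : U.OkS) : NZ0 U := H66.nz0_ofGs hU (lqCGs hU) (Nm.hignGs hU (Nm.whpGs hU))

theorem rw0 (hU : U.OkS) (hc : U.IsCh Cc) : Rw U Cc := rw_ofGs hU hc (nz0 hU)

theorem hz0 (hU : U.OkS) (hc : U.IsCh Cc) : HZ U :=
  hzCGs hU (lqCGs hU) (dicCGs hU hc (hcCGs hU)) (diaCGs hU) (nz0 hU)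
    (cutCGs hU (hcCGs hU) (lqCGs hU))

theorem big0 (hU : U.OkS) (hc : U.IsCh Cc) : BIGGs U Cc :=
  bigrCGs hU (nz0 hU) (cutCGs hU (hcCGs hU) (lqCGs hU)) (hz0 hU hc) (rw0 hU hc).sbr (nonvCGs hU Cc)

theorem hdS (hU : U.OkS) (hc : U.IsCh Cc) {y : O} (hy : y * y = -1) (P0 : L0 U) :
    Wx.HDX True U.ϖ U.S U.L (fun i : TY U.bn Cc => Yy P0 i) P0.W0 (SesY U.bn Cc)
      (inc (XG U.bn Cc)) (YB U.bn Cc) fun J => inc (XJ U.bn Cc J) := by
  have hZ := hz0 hU hc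
  have R := rw0 hU hc
  have e0 : Finset.univ.image (Fin.elim0 : Fin 0 → ℕ) = ∅ := Finset.image_empty _
  refine
    { comb := fun a a' a1 a2 N hN J => P022E.Rep.combL (fun l : U.L.C => l.1) Cc a a' a1 a2
        (fun i => N (inc i)) (fun i j k s => hN _ _ _ s) J
      low := fun _ => combB
      gm0 := fun i => e0 ▸ R.gmr 0 0 _ P0 _ (Fb.y_le _ _)
      gmW := e0 ▸ R.gmr 0 0 _ P0 _ (Fb.wh_le _)
      dm0 := fun i => e0 ▸ dmS hU P0 _
      dmW := e0 ▸ dmS hU P0 _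
      pi0 := piY P0
      sb0 := fun i => (R.sbr 0).elim fun b hb => ⟨_, sbY P0 hU hZ (hb 0 _ P0) i⟩
      det0 := fun J g => ⟨1, Nat.one_pos, R.dt0 P0 _ g⟩
      big := fun J => big0 hU hc P0 J
      lev := fun r => ?_ }
  obtain ⟨b, hb⟩ := R.sbr r
  refine ⟨fun _ => 3 ^ Fintype.card U.L.C * b, 5, 1, ∅, fun n q hq ha => ?_⟩
  obtain ⟨P⟩ := ex_lqS hU r n q hq fun i => by
    simpa only [Finset.empty_union] using ha i
  choose φ hφ using fun i => H20.exists_isFrob (ha i).prime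
  choose K hK using psY (Cc := Cc) P hU hy
  exact ⟨P.τ, φ, fun i => Yy P i, P.Wc, fun a => Mt P.ev (K a), inferInstance, inferInstance,
    inferInstance, inferInstance, inferInstance, inferInstance,
    lv2Y P hU R hZ P0 φ hφ (hb n q P), fun i => dmS hU P _, dmS hU P _,
    fun _ a h1 h2 => ⟨hK a h1 h2, dmS hU P _⟩⟩

theorem ex_l0 (hU : U.OkS) : Nonempty (L0 U) :=
  ex_base (hcCGs hU) (gopCGs hU) (lqCGs hU) (Ac.actHGs hU)

/-- **the forms side** -/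
theorem formsS (hU : U.OkS) (hy : ∃ y : O, y * y = -1) :
    ∃ (Cc : ∀ l : U.L.C, P022D.Rep.Ch (ZMod l.1) F) (P0 : L0 U), U.IsCh Cc ∧
    Wx.HDX True U.ϖ U.S U.L (fun i : TY U.bn Cc => Yy P0 i) P0.W0 (SesY U.bn Cc)
      (inc (XG U.bn Cc)) (YB U.bn Cc) fun J => inc (XJ U.bn Cc J) := by
  obtain ⟨Cc, hc⟩ := chCGs hU
  obtain ⟨y, hy⟩ := hy
  obtain ⟨P0⟩ := ex_l0 hU
  exact ⟨Cc, P0, hc, hdS hU hc hy P0⟩

end Vale.Agent.P022S.Ps
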