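import Vale.Agent.P022S.Ps.Main
import Vale.Agent.P022S.Rows

/-!
P022S: the forms side in the shape of the rows.
-/

set_option linter.all false

noncomputable section

namespace Vale.Agent.P022S.Ps

open Vale.Agent.P022 Vale.Agent.P022D.V Vale.Agent.P022E.V Vale.Agent.P022E.Fm
open Vale.Agent.P022D.As (Tg)
open Vale.Agent.P022D.Rep (XG XJ)
open Vale.Agent.P022G.Ps

theorem hd4_of {O F : Type} [CommRing O] [IsLocalRing O] [Field F] {ϖ : O} {S : P022D.R.Dat O F}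
    {L : P022E.Loc.Pl O} {I : Type} {Y0 : I → Type} {W0 : Type} [∀ i, AddCommGroup (Y0 i)]
    [∀ i, Module (Tg O) (Y0 i)] [AddCommGroup W0] [Module (Tg O) W0] {ses : I → I → I → Prop}
    {ig ib : I} {iJ : Finset L.C → I} (h : Wx.HDX True ϖ S L Y0 W0 ses ig ib iJ) :
    HD4 ϖ S L Y0 W0 ses ig ib iJ :=
  { comb := h.comb, low := h.low trivial, gm0 := h.gm0, gmW := h.gmW, dm0 := h.dm0, dmW := h.dmW
    pi0 := h.pi0, sb0 := h.sb0, det0 := h.det0, big := h.big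
    lev := fun r => by
      obtain ⟨b, c, n₀, A, k⟩ := h.lev r
      refine ⟨b, c, n₀, A, fun n q h1 h2 => ?_⟩
      obtain ⟨τ, φ, Yb, Wc, Pc, i1, i2, i3, i4, i5, i6, e1, e2, e3, e4⟩ :=
        k n q h1 fun i => ⟨(h2 i).prime, (h2 i).out, (h2 i).one, (h2 i).two⟩
      exact ⟨τ, φ, Yb, Wc, Pc, i1, i2, i3, i4, i5, i6, e1, e2, e3, e4 trivial⟩ }

variable {O F : Type} [CommRing O] [IsDomain O] [IsDiscreteValuationRing O] [P022D.Core.Coef O]
  [Co O] [Field F] [Finite F] [CharP F 2] {U : Su O F} [hC : ∀ l : U.L.C, Fact l.1.Prime]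
  {Cc : ∀ l : U.L.C, P022D.Rep.Ch (ZMod l.1) F}

/-- **row HD4** -/
theorem hd4 (hU : U.OkS) (hc : U.IsCh Cc) {y : O} (hy : y * y = -1) (P0 : L0 U) :
    HD4 U.ϖ U.S U.L (fun i : TY U.bn Cc => Yy P0 i) P0.W0 (SesY U.bn Cc)
      (inc (XG U.bn Cc)) (YB U.bn Cc) fun J => inc (XJ U.bn Cc J) :=
  hd4_of (hdS hU hc hy P0)

end Vale.Agent.P022S.Ps
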