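import Vale.Agent.P022G.Ps.Grp
import Vale.Agent.P022G.Ps.Rep
import Vale.Agent.P022S.Fp.FmForms

/-!
P022S, principal series: the eigenvectors of the Borel subgroup.
-/

set_option linter.all false

noncomputable section

namespace Vale.Agent.P022S.Ps

open Vale.Agent.P022G.Ps

open Vale.Agent.P022 Vale.Agent.P022D.V Vale.Agent.P022E.V Vale.Agent.P022E.Fm Vale.Agent.P027M.M
open Vale.Agent.P022E.Fm.Pj (cg1 cgp un0 ud_mul cg_val pw_mod)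
open Vale.Agent.P022D.W.Step (kl Cs Dv mem_kl mem_kl1 cut_dv)
open Vale.Agent.P022D.Fm (rD AM smul_of_dvd)

variable {O F : Type} [CommRing O] [Field F]

/-- the first character -/
def mu (U : Su O F) {M : ℕ} (κ : ZMod M → O) (x : ZMod M) : O := U.om x.val * κ x

/-- the data of a principal series -/
structure Pd (U : Su O F) (M : ℕ) (κ κ' : ZMod M → O) (w : O) : Prop where
  cd : Cd M U.NW (mu U κ) κ' w
  wz : U.z ^ U.NC * w ^ U.NC = 1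
  kN : ∀ a : (ZMod M)ˣ, P022D.V.Cg M U.N a 1 → κ a = 1 ∧ κ' a = 1
  kk : ∀ a : (ZMod M)ˣ, κ a * κ' a = 1
  kr : ∀ a : (ZMod M)ˣ, U.ϖ ∣ κ a - 1 ∧ U.ϖ ∣ κ' a - 1

variable [Co O]

/-- the eigenvectors -/
def Zb (U : Su O F) (M n : ℕ) (κ κ' : ZMod M → O) (w : O) : Submodule O (AM O M) :=
  Eg O (RD O) (HB M U.N (M / U.NC) n) (cB (mu U κ) κ' w)

variable [IsLocalRing O] [CharP F 2] {U : Su O F} {M n : ℕ} {κ κ' : ZMod M → O} {w : O}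

theorem lm_K (hU : U.OkS) (L : U.Lm M) : U.NW ∣ M / U.NC ∧ Nat.Coprime U.NC (M / U.NC) := by
  obtain ⟨Q, hQ⟩ := L.dvd
  have e : M / U.NC = U.NW * Q :=
    Nat.div_eq_of_eq_mul_right (Nat.pos_of_ne_zero hU.NCne) (by rw [hQ, Su.N]; ring)
  have e2 : M / U.N = Q := Nat.div_eq_of_eq_mul_right (Nat.pos_of_ne_zero hU.Nne) hQ
  rw [e]
  exact ⟨dvd_mul_right _ _, hU.cop.symm.mul_right
    ((e2 ▸ L.cop).coprime_dvd_left (Dvd.intro_left _ rfl))⟩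

theorem lm_W (L : U.Lm M) : U.NW ∣ M := (dvd_mul_right _ _).trans L.dvd

theorem Pd.red (h : Pd U M κ κ' w) (hU : U.OkS) (L : U.Lm M) (A D : (ZMod M)ˣ) :
    U.ϖ ∣ mu U κ A * κ' D - 1 := by
  haveI : NeZero M := ⟨L.odd.pos.ne'⟩
  have a := hU.omr _ ((ZMod.val_coe_unit_coprime A).coprime_dvd_right L.dvd)
  have e : mu U κ A * κ' D - 1 = (U.om (A : ZMod M).val - 1) * (κ A * κ' D) +
      (κ A - 1) * κ' D + (κ' D - 1) := by unfold mu; ring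
  rw [e]
  exact ((a.mul_right _).add ((h.kr A).1.mul_right _)).add (h.kr D).2

theorem Pd.pw (h : Pd U M κ κ' w) (L : U.Lm M) {x : ZMod M} {y : ℕ}
    (e : P022D.V.Cg M U.NW x y) : w ^ x.val = w ^ y := by
  haveI : NeZero M := ⟨L.odd.pos.ne'⟩
  exact pw_mod h.cd.hw (cg_val (lm_W L) e)

theorem Pd.le (h : Pd U M κ κ' w) (hU : U.OkS) (L : U.Lm M) : Zb U M n κ κ' w ≤ U.Zp M n := by
  haveI : NeZero M := ⟨L.odd.pos.ne'⟩
  refine fun v hv => ⟨⟨mem_Ce.2 fun a ha => ?_, mem_WhP.2 fun x => ?_⟩,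
    mem_TQ.2 fun a d ha hd => ?_⟩
  · rw [eg_dg hv (Dg.of_K ha) (Dg.of_K ha), mu, mul_assoc, h.kk, mul_one]
  · rw [eg_un h.cd hv, h.pw L (cg_refl _), smul_smul, pow_mul, pow_mul, ← mul_pow, h.wz, one_pow,
      one_smul]
  · rw [eg_dg hv (Dg.of_N ha) (Dg.of_N hd), mu, hU.cn_om_one L.dvd (cgp ha _),
      (h.kN _ (cgp ha _)).1, (h.kN _ (cgp hd _)).2, one_mul, one_mul, one_smul]

theorem Pd.unK (h : Pd U M κ κ' w) (hU : U.OkS) (L : U.Lm M) {v : AM O M}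
    (hv : v ∈ Zb U M n κ κ' w) {K : ℕ} (hK : U.NW ∣ K) (x : ZMod M) :
    rD O (un ((K : ZMod M) * x)) v = v := by
  haveI : NeZero M := ⟨L.odd.pos.ne'⟩
  obtain ⟨c, rfl⟩ := hK
  rw [eg_un h.cd hv, h.pw L (y := 0) ⟨c * x, by push_cast; ring⟩, pow_zero, one_smul]

theorem Pd.tor (h : Pd U M κ κ' w) (hU : U.OkS) (L : U.Lm M) {v : AM O M} (h0 : U.ϖ • v = 0) :
    v ∈ Zb U M n κ κ' w ↔ v ∈ U.Zp M n ∧ v ∈ Iv O (RD O) (Bq M (M / U.NC)) := by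
  haveI : NeZero M := ⟨L.odd.pos.ne'⟩
  obtain ⟨k1, k2⟩ := lm_K hU L
  have o : ∀ A D : (ZMod M)ˣ, (mu U κ A * κ' D) • v = v := fun A D =>
    (smul_of_dvd h0 (h.red hU L A D)).trans (one_smul _ _)
  refine ⟨fun hv => ⟨h.le hU L hv, P022D.V.mem_Iv.2 fun g hg => ?_⟩, fun ⟨h1, h2⟩ => ?_⟩
  · obtain ⟨x, A, D, a, d, rfl⟩ := bq_dec hg
    rw [← rD_apply, rD_mul, Module.End.mul_apply, eg_dg hv (Dg.of_K a) (Dg.of_K d), o,
      h.unK hU L hv k1]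
  · rintro _ ⟨x, _, _, ⟨c, a, c1, a1, rfl⟩, ⟨c', d, c2, d1, rfl⟩, rfl⟩
    have b := P022D.V.mem_Iv.1 h2
    obtain ⟨s, t, e⟩ := (Nat.isCoprime_iff_coprime.2 k2).map (Int.castRingHom (ZMod M))
    simp only [eq_intCast, Int.cast_natCast] at e
    have ex : x = ((U.NC * (s * x).val : ℕ) : ZMod M) + ((M / U.NC : ℕ) : ZMod M) * (t * x) := by
      rw [Nat.cast_mul, ZMod.natCast_zmod_val]
      linear_combination -x * e
    have e1 := mem_WhP.1 h1.1.2 (s * x).val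
    have e2 : rD O (un x) v = w ^ x.val • v := by
      rw [h.pw L (y := U.NC * (s * x).val) (cg_dvd2 k1 ⟨_, ex⟩)]
      conv_lhs => rw [ex, ← P022D.V.Gn.un_mul, rD_mul, Module.End.mul_apply, rD_apply _ v,
        b _ (bq_un _)]
      conv_rhs => rw [← e1, smul_smul, pow_mul, pow_mul, ← mul_pow, mul_comm, h.wz, one_pow,
        one_smul]
    rw [cB_ud, mul_comm _ (w ^ _), mul_smul, o, ← rD_apply, ← dg_mul, rD_mul, rD_mul,
      Module.End.mul_apply, Module.End.mul_apply, mem_TQ.1 h1.2 a d a1 d1, rD_apply _ v,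
      b _ (bq_dg c1 c2), e2]

theorem Pd.stb (h : Pd U M κ κ' w) (L : U.Lm M) :
    Stb (P022D.Fm.HA O M U.N U.i) (Zb U M n κ κ' w) := by
  haveI : NeZero M := ⟨L.odd.pos.ne'⟩
  exact h.cd.stb (lm_W L) (dvd_mul_right _ _) _

theorem Pd.dv [IsDomain O] [IsDiscreteValuationRing O] [P022D.Core.Coef O]
    (h : Pd U M κ κ' w) (hU : U.OkS) (L : U.Lm M) :
    Dv (algebraMap O (U.B M) U.ϖ) (U.sb M (Zb U M n κ κ' w)) := fun v hv => by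
  haveI : NeZero M := ⟨L.odd.pos.ne'⟩
  haveI := Pj.finq hU.uni
  obtain ⟨u, hu, k, e⟩ := Pj.dvE L.odd L.asm_three hU.uni (Pj.hn2 hU.uni) hU.uni.ne _ _ h.cd.one
    (h.cd.mul (lm_W L) (lm_K hU L).1 (dvd_mul_right _ _)) v.2 ((mem_sb (h.stb L)).1 hv)
  exact ⟨⟨u, hu⟩, (mem_sb (h.stb L)).2 k, Subtype.ext e⟩

variable [hC : ∀ l : U.L.C, Fact l.1.Prime]
  {Cc : ∀ l : U.L.C, P022D.Rep.Ch (ZMod l.1) F}

theorem mem_B (hU : U.OkS) (L : U.Lm M) {X : Dt U M n} (hX : X.Ok) (v : U.Wb M n) :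
    v ∈ X.E.Y (YB U.bn Cc).v ↔ ((v : U.GG M) : AM O M) ∈ Iv O (RD O) (Bq M (M / U.NC)) := by
  rw [P022D.V.mem_Iv]
  have dv : ∀ l : U.L.C, l.1 ∣ M := fun l => (Dic.levGs hU L l.2).2.2.2.2
  constructor
  · intro h g hg
    have e := hX.act g hg.1 (fun l => QuotientGroup.mk (pr (dv l) g)) (fun _ _ => rfl) v
    rw [(mem_YB X.E v).1 h (fun l => QuotientGroup.mk (pr (dv l) g)) fun l _ => ⟨pr (dv l) g, by
      show ZMod.castHom (dv l) (ZMod l.1) ((g : Matrix (Fin 2) (Fin 2) (ZMod M)) 1 0) = 0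
      rw [hg.2, map_zero], rfl⟩] at e
    exact e.symm
  · intro h l
    refine (X.E.kill_Ib (U.bn l) v).2 ?_
    rintro _ ⟨g, hg, rfl⟩
    have b := (P022D.Rep.emb_B (Dic.spGs hU L l.2)).2 hg
    exact Subtype.ext (Subtype.ext ((Dic.rho_embGs hU L hX l (Dic.spGs hU L l.2) g v).trans
      (h _ ⟨Kq_mono (Dic.levGs hU L l.2).2.1 b.1, b.2⟩)))

theorem mem_B1 (hU : U.OkS) (L : U.Lm M) {X : Dt U M n} (hX : X.Ok) (v : U.GG M) :
    v ∈ X.Y1 (YB U.bn Cc).v ↔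
      v ∈ U.Wb M n ∧ (v : AM O M) ∈ Iv O (RD O) (Bq M (M / U.NC)) := by
  constructor
  · rintro ⟨w, hw, rfl⟩
    exact ⟨w.2, (mem_B hU L hX w).1 hw⟩
  · rintro ⟨h1, h2⟩
    exact ⟨⟨v, h1⟩, (mem_B hU L hX _).2 h2, rfl⟩

theorem Pd.y1 (h : Pd U M κ κ' w) (hU : U.OkS) (L : U.Lm M) {X : Dt U M n} (hX : X.Ok) :
    X.Y1 (YB U.bn Cc).v = kl (U.sb M (Zb U M n κ κ' w)) {algebraMap O (U.B M) U.ϖ} := by
  haveI : NeZero M := ⟨L.odd.pos.ne'⟩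
  ext v
  rw [mem_B1 hU L hX, mem_kl1, mem_sb (h.stb L), mem_Wb L.dvd hU.zN]
  constructor
  · rintro ⟨⟨a, b⟩, c⟩
    exact ⟨(h.tor hU L b).2 ⟨a, c⟩, Subtype.ext b⟩
  · rintro ⟨a, b⟩
    have b' : U.ϖ • (v : AM O M) = 0 := congrArg Subtype.val b
    exact ⟨⟨((h.tor hU L b').1 a).1, b'⟩, ((h.tor hU L b').1 a).2⟩

end Vale.Agent.P022S.Ps
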